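import Vale.Agent.P237.Quant.TailData.N97.tailN97N0Part0
import Vale.Agent.P237.Quant.TailData.N97.tailN97N0Part1
import Vale.Agent.P237.Quant.TailData.N97.tailN97N0Part2
import Vale.Agent.P237.Quant.TailData.N97.tailN97N0Part3
import Vale.Agent.P237.Quant.TailData.N97.tailN97N0Part4
import Vale.Agent.P237.Quant.TailData.N97.tailN97N0Part5
import Vale.Agent.P237.Quant.TailData.N97.tailN97N0Part6
import Vale.Agent.P237.Quant.TailData.N97.tailN97N0Part7
import Vale.Agent.P237.Quant.TailData.N97.tailN97N0Part8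

/-!
Tail calibration tailN97N0 in dimension 97. The check. Generated data, checked by the kernel.
-/

set_option maxRecDepth 100000
set_option linter.all false

namespace Vale.Agent.P237.Quant.TailData

open TailCert


/-- The calibration. -/
noncomputable def tailN97N0 : Cfg :=
  tailN97N0Base.withIvals (List.flatten [tailN97N0L0, tailN97N0L1, tailN97N0L2, tailN97N0L3, tailN97N0L4, tailN97N0L5, tailN97N0L6, tailN97N0L7, tailN97N0L8, tailN97N0L9, tailN97N0L10, tailN97N0L11, tailN97N0L12, tailN97N0L13, tailN97N0L14, tailN97N0L15, tailN97N0L16, tailN97N0L17, tailN97N0L18, tailN97N0L19, tailN97N0L20, tailN97N0L21, tailN97N0L22, tailN97N0L23, tailN97N0L24, tailN97N0L25, tailN97N0L26, tailN97N0L27, tailN97N0L28, tailN97N0L29, tailN97N0L30, tailN97N0L31, tailN97N0L32, tailN97N0L33, tailN97N0L34])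

theorem tailN97N0_parts : [tailN97N0L0, tailN97N0L1, tailN97N0L2, tailN97N0L3, tailN97N0L4, tailN97N0L5, tailN97N0L6, tailN97N0L7, tailN97N0L8, tailN97N0L9, tailN97N0L10, tailN97N0L11, tailN97N0L12, tailN97N0L13, tailN97N0L14, tailN97N0L15, tailN97N0L16, tailN97N0L17, tailN97N0L18, tailN97N0L19, tailN97N0L20, tailN97N0L21, tailN97N0L22, tailN97N0L23, tailN97N0L24, tailN97N0L25, tailN97N0L26, tailN97N0L27, tailN97N0L28, tailN97N0L29, tailN97N0L30, tailN97N0L31, tailN97N0L32, tailN97N0L33, tailN97N0L34].Forall fun l => tailN97N0Base.partUsed tailN97N0Used l = true := by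
  simp only [List.forall_cons, List.Forall]
  exact ⟨tailN97N0L0_ok, tailN97N0L1_ok, tailN97N0L2_ok, tailN97N0L3_ok, tailN97N0L4_ok, tailN97N0L5_ok, tailN97N0L6_ok, tailN97N0L7_ok, tailN97N0L8_ok, tailN97N0L9_ok, tailN97N0L10_ok, tailN97N0L11_ok, tailN97N0L12_ok, tailN97N0L13_ok, tailN97N0L14_ok, tailN97N0L15_ok, tailN97N0L16_ok, tailN97N0L17_ok, tailN97N0L18_ok, tailN97N0L19_ok, tailN97N0L20_ok, tailN97N0L21_ok, tailN97N0L22_ok, tailN97N0L23_ok, tailN97N0L24_ok, tailN97N0L25_ok, tailN97N0L26_ok, tailN97N0L27_ok, tailN97N0L28_ok, tailN97N0L29_ok, tailN97N0L30_ok, tailN97N0L31_ok, tailN97N0L32_ok, tailN97N0L33_ok, tailN97N0L34_ok⟩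

theorem tailN97N0_check : tailN97N0.check = true :=
  Cfg.check_of_parts (by decide +kernel) tailN97N0_parts

end Vale.Agent.P237.Quant.TailData
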