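import Vale.Agent.P237.Quant.TailData.N97.tailN97P2Part0
import Vale.Agent.P237.Quant.TailData.N97.tailN97P2Part1
import Vale.Agent.P237.Quant.TailData.N97.tailN97P2Part2
import Vale.Agent.P237.Quant.TailData.N97.tailN97P2Part3
import Vale.Agent.P237.Quant.TailData.N97.tailN97P2Part4
import Vale.Agent.P237.Quant.TailData.N97.tailN97P2Part5
import Vale.Agent.P237.Quant.TailData.N97.tailN97P2Part6

/-!
Tail calibration tailN97P2 in dimension 97. The check. Generated data, checked by the kernel.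
-/

set_option maxRecDepth 100000
set_option linter.all false

namespace Vale.Agent.P237.Quant.TailData

open TailCert


/-- The calibration. -/
noncomputable def tailN97P2 : Cfg :=
  tailN97P2Base.withIvals (List.flatten [tailN97P2L0, tailN97P2L1, tailN97P2L2, tailN97P2L3, tailN97P2L4, tailN97P2L5, tailN97P2L6, tailN97P2L7, tailN97P2L8, tailN97P2L9, tailN97P2L10, tailN97P2L11, tailN97P2L12, tailN97P2L13, tailN97P2L14, tailN97P2L15, tailN97P2L16, tailN97P2L17, tailN97P2L18, tailN97P2L19, tailN97P2L20, tailN97P2L21, tailN97P2L22, tailN97P2L23, tailN97P2L24])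

theorem tailN97P2_parts : [tailN97P2L0, tailN97P2L1, tailN97P2L2, tailN97P2L3, tailN97P2L4, tailN97P2L5, tailN97P2L6, tailN97P2L7, tailN97P2L8, tailN97P2L9, tailN97P2L10, tailN97P2L11, tailN97P2L12, tailN97P2L13, tailN97P2L14, tailN97P2L15, tailN97P2L16, tailN97P2L17, tailN97P2L18, tailN97P2L19, tailN97P2L20, tailN97P2L21, tailN97P2L22, tailN97P2L23, tailN97P2L24].Forall fun l => tailN97P2Base.partUsed tailN97P2Used l = true := by
  simp only [List.forall_cons, List.Forall]
  exact ⟨tailN97P2L0_ok, tailN97P2L1_ok, tailN97P2L2_ok, tailN97P2L3_ok, tailN97P2L4_ok, tailN97P2L5_ok, tailN97P2L6_ok, tailN97P2L7_ok, tailN97P2L8_ok, tailN97P2L9_ok, tailN97P2L10_ok, tailN97P2L11_ok, tailN97P2L12_ok, tailN97P2L13_ok, tailN97P2L14_ok, tailN97P2L15_ok, tailN97P2L16_ok, tailN97P2L17_ok, tailN97P2L18_ok, tailN97P2L19_ok, tailN97P2L20_ok, tailN97P2L21_ok, tailN97P2L22_ok, tailN97P2L23_ok, tailN97P2L24_ok⟩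

theorem tailN97P2_check : tailN97P2.check = true :=
  Cfg.check_of_parts (by decide +kernel) tailN97P2_parts

end Vale.Agent.P237.Quant.TailData
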